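import Vale.Agent.P370Z.GEO.Rem

/-!
# P370, block GEO: Coulomb repulsion = contact interaction + small remainder
-/

namespace Vale.Agent.P370Z

open MeasureTheory Finset

noncomputable section

namespace GEO

lemma clJ_even (zl zr : ℕ → ℝ) (I : ℕ) :
    clJ zl zr (2 * I) = Set.Icc (zl (4 * I)) (zr (4 * I + 1)) := by
  unfold clJ; rw [show 2 * (2 * I) = 4 * I by ring]

lemma clJ_odd (zl zr : ℕ → ℝ) (I : ℕ) :
    clJ zl zr (2 * I + 1) = Set.Icc (zl (4 * I + 2)) (zr (4 * I + 3)) := by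
  unfold clJ; rw [show 2 * (2 * I + 1) = 4 * I + 2 by ring]

lemma inv_nrm_nonneg (x : P3) : 0 ≤ 1 / nrm x := by unfold nrm; positivity

lemma nrm_meas : Measurable fun p : P3 × P3 => 1 / nrm (p.1 - p.2) := by
  unfold nrm; fun_prop

section Contact

variable {Ec : Type} [Fintype Ec] {A A' : Ec → Set P3}

lemma contact_meas (hA : ∀ c, MeasurableSet (A c)) (hA' : ∀ c, MeasurableSet (A' c)) :
    Measurable fun p : P3 × P3 => contact A A' p.1 p.2 := by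
  unfold contact
  refine Finset.measurable_sum _ fun c _ => ?_
  have h1 : Measurable ((A c).indicator (1 : P3 → ℝ)) := measurable_one.indicator (hA c)
  have h2 : Measurable ((A' c).indicator (1 : P3 → ℝ)) := measurable_one.indicator (hA' c)
  fun_prop

lemma contact_zero {x y : P3}
    (h : ¬ ∃ c, (x ∈ A c ∧ y ∈ A' c) ∨ (x ∈ A' c ∧ y ∈ A c)) : contact A A' x y = 0 := by
  unfold contact
  refine sum_eq_zero fun c _ => ?_
  have g1 : x ∉ A c ∨ y ∉ A' c := not_and_or.mp fun g => h ⟨c, Or.inl g⟩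
  have g2 : x ∉ A' c ∨ y ∉ A c := not_and_or.mp fun g => h ⟨c, Or.inr g⟩
  rcases g1 with g1 | g1 <;> rcases g2 with g2 | g2 <;> simp [g1, g2]

lemma contact_one (hd : ∀ c x, x ∈ A c → x ∉ A' c)
    (hd' : ∀ c c' x, x ∈ A c ∪ A' c → x ∈ A c' ∪ A' c' → c = c') {x y : P3} {c : Ec}
    (h : (x ∈ A c ∧ y ∈ A' c) ∨ (x ∈ A' c ∧ y ∈ A c)) : contact A A' x y = 1 := by
  unfold contact
  have hx : x ∈ A c ∪ A' c := h.elim (fun h => Or.inl h.1) fun h => Or.inr h.1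
  rw [sum_eq_single c]
  · rcases h with h | h
    · simp [h.1, h.2, hd c x h.1]
    · have : x ∉ A c := fun h' => hd c x h' h.1
      simp [h.1, h.2, this]
  · intro c' _ hne
    have h1 : x ∉ A c' := fun h' => hne (hd' _ _ x (Or.inl h') hx)
    have h2 : x ∉ A' c' := fun h' => hne (hd' _ _ x (Or.inr h') hx)
    simp [h1, h2]
  · simp

end Contact

lemma nrm_bounds {x : P3} {R : ℝ} (hR : 0 < R) (h0 : R ≤ |x 0|) (h0' : |x 0| ≤ R + R / 50)
    (h1 : R ≤ |x 1|) (h1' : |x 1| ≤ R + R / 50) (h2 : |x 2| ≤ R / 100) :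
    2 / (3 * R) ≤ 1 / nrm x ∧ 1 / nrm x ≤ 5 / (7 * R) := by
  have a0 := sq_abs (x 0)
  have a1 := sq_abs (x 1)
  have a2 := sq_abs (x 2)
  have b2 := abs_nonneg (x 2)
  have l : 7 * R / 5 ≤ nrm x := by
    unfold nrm
    refine Real.le_sqrt_of_sq_le ?_
    rw [Fin.sum_univ_three]
    nlinarith
  have r : nrm x ≤ 3 * R / 2 := by
    unfold nrm
    refine Real.sqrt_le_iff.mpr ⟨by positivity, ?_⟩
    rw [Fin.sum_univ_three]
    nlinarith
  have hp : 0 < nrm x := by linarith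
  constructor
  · rw [div_le_div_iff₀ (by positivity) hp]; linarith
  · rw [div_le_div_iff₀ hp (by positivity)]; linarith

lemma final_ineq {K S Cc Rf lw εz : ℝ} (hS : 2 ≤ S) (hK0 : 0 ≤ K) (hK : K ≤ S) (hC0 : 0 ≤ Cc)
    (hC : Cc ≤ S) (hRf : 0 < Rf) (hlw : 1 ≤ lw) (h0 : 0 ≤ εz) (h1 : εz ≤ 1) :
    K ^ 4 * (1 / Rf + 1 / lw + 4 * εz * (1 + Cc ^ 2 * 4) ^ 2 +
      1 / lw * (4 * √lw) * (1 + Cc ^ 2 * 4)) ≤ S ^ 16 * (1 / Rf + 1 / √lw + √εz) := by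
  have hS1 : 1 ≤ S := by linarith
  have hq : 1 + Cc ^ 2 * 4 ≤ S ^ 5 := by
    have : Cc ^ 2 ≤ S ^ 2 := by gcongr
    have h3 : (2 : ℝ) ^ 3 ≤ S ^ 3 := by gcongr
    have h2 : 1 ≤ S ^ 2 := one_le_pow₀ hS1
    nlinarith
  have h4 : (4 : ℝ) ≤ S ^ 2 := by nlinarith
  have hs1 : 1 ≤ √lw := Real.one_le_sqrt.mpr hlw
  have hsq : √lw * √lw = lw := Real.mul_self_sqrt (by linarith)
  have e1 : 1 / lw * (4 * √lw) = 4 * (1 / √lw) := by
    field_simp; nlinarith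
  have e2 : 1 / lw ≤ 1 / √lw := one_div_le_one_div_of_le (by positivity) (by nlinarith)
  have e3 : εz ≤ √εz := by
    have := Real.mul_self_sqrt h0
    have h5 : √εz ≤ 1 := Real.sqrt_le_one.mpr h1
    nlinarith [Real.sqrt_nonneg εz]
  have p1 : (1 : ℝ) ≤ S ^ 12 := one_le_pow₀ hS1
  have p2 : 1 + S ^ 2 * S ^ 5 ≤ S ^ 12 := by
    have h7 : 1 ≤ S ^ 7 := one_le_pow₀ hS1
    have h5 : (2 : ℝ) ^ 5 ≤ S ^ 5 := by gcongr
    nlinarith
  rw [e1]
  calc _ ≤ S ^ 4 * (1 / Rf + 1 / √lw + S ^ 2 * √εz * (S ^ 5) ^ 2 +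
        S ^ 2 * (1 / √lw) * S ^ 5) := by gcongr
    _ = S ^ 4 * (1 * (1 / Rf) + (1 + S ^ 2 * S ^ 5) * (1 / √lw) + S ^ 12 * √εz) := by ring
    _ ≤ S ^ 4 * (S ^ 12 * (1 / Rf) + S ^ 12 * (1 / √lw) + S ^ 12 * √εz) := by gcongr
    _ = _ := by ring

end GEO

open GEO in
theorem geo : ∃ κ : ℕ, ∀ {B C D Ec : Type} [Fintype Ec] (K : ℕ) (Λ : ℝ) (u : ℝ → ℝ)
    (e b : ℕ → ℝ → ℝ) (H : ℕ → ℕ → ℝ) (zl zr sb : ℕ → ℝ) (Cc Γ τ δm δg εb εz : ℝ)
    (_ : Band1 K Λ u e b H zl zr sb Cc Γ τ δm δg εb εz)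
    (ω z0 L1 : ℝ) (e3 : ℝ → ℝ) (Γ3 τ3 δ3 : ℝ) (_ : ZBand ω z0 L1 e3 Cc Γ3 τ3 δ3)
    (O : C ⊕ D → Fin K × Fin K → ℝ) (blk : D → B) (U W : Ec → D → ℝ) (pos : Ec → ℕ)
    (wide : ℕ → Prop) (_ : GridGeo O blk U W pos wide) (Rn Rf lw S : ℝ),
    2 ≤ S → (K : ℝ) ≤ S → Cc ≤ S → 0 < Rn → 0 < Rf → 1 ≤ lw → 0 ≤ εz → εz ≤ 1 → 0 ≤ z0 →
    (∀ k < K, zl k ≤ zr k) → (∀ k k', k < k' → k' < K → zr k ≤ zl k') →
    (∀ k k', k < k' → k' < K → k / 4 ≠ k' / 4 → zr k + Rf ≤ zl k') →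
    (∀ c, zl (4 * pos c + 2) = zr (4 * pos c + 1) + Rn ∧
      zr (4 * pos c + 1) ≤ zl (4 * pos c) + Rn / 100 ∧
      zr (4 * pos c + 3) ≤ zl (4 * pos c + 2) + Rn / 100) → 2 * (z0 + 1) ≤ Rn / 100 →
    (∀ k < K, wide (k / 4) → sb k ≤ 1 / lw) →
    ∃ (A A' : Ec → Set P3) (ϱ : P3 → P3 → ℝ),
      CT (fun μ => comb (O μ) (prodOrb e e3)) blk U W A A' ϱ (2 / (3 * Rn)) (5 / (7 * Rn))
        (S ^ κ * √εz) (S ^ κ * (1 / Rf + 1 / √lw + √εz)) := by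
  refine ⟨16, ?_⟩
  intro B C D Ec _ K Λ u e b H zl zr sb Cc Γ τ δm δg εb εz bd ω z0 L1 e3 Γ3 τ3 δ3 zb O blk U W pos
    wide gg Rn Rf lw S hS hK hC hRn hRf hlw hε hε1 hz0 hle hord hfar hct hz hwide
  classical
  have orb : Orb K e zl zr εz :=
    { cont := fun k hk => bd_cont (bd.e_bd k hk)
      int := fun k hk l hl => int_mul (bd_cont (bd.e_bd k hk)) (bd_cont (bd.e_bd l hl))
        (bd.e_supp k hk)
      on := bd.on
      zone := bd.zone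
      le := hle
      ord := hord }
  have hC0 : 0 ≤ Cc := (abs_nonneg _).trans (bd.u_bd 0)
  have c3 : Continuous e3 := bd_cont zb.e_bd
  set Z : Set ℝ := Set.Icc (-(z0 + 1)) (z0 + 1) with hZ
  set A : Ec → Set P3 := fun c => bx (clJ zl zr (2 * pos c)) (clJ zl zr (2 * pos c + 1)) Z with hA
  set A' : Ec → Set P3 := fun c => bx (clJ zl zr (2 * pos c + 1)) (clJ zl zr (2 * pos c)) Z
    with hA'
  have mA : ∀ c, MeasurableSet (A c) := fun c =>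
    bx_meas measurableSet_Icc measurableSet_Icc measurableSet_Icc
  have mA' : ∀ c, MeasurableSet (A' c) := fun c =>
    bx_meas measurableSet_Icc measurableSet_Icc measurableSet_Icc
  have memA : ∀ c x, x ∈ A c ↔ (zl (4 * pos c) ≤ x 0 ∧ x 0 ≤ zr (4 * pos c + 1)) ∧
      (zl (4 * pos c + 2) ≤ x 1 ∧ x 1 ≤ zr (4 * pos c + 3)) ∧ -(z0 + 1) ≤ x 2 ∧ x 2 ≤ z0 + 1 := by
    intro c x
    simp only [hA, hZ, mem_bx, clJ_even, clJ_odd, Set.mem_Icc]
  have memA' : ∀ c x, x ∈ A' c ↔ (zl (4 * pos c + 2) ≤ x 0 ∧ x 0 ≤ zr (4 * pos c + 3)) ∧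
      (zl (4 * pos c) ≤ x 1 ∧ x 1 ≤ zr (4 * pos c + 1)) ∧ -(z0 + 1) ≤ x 2 ∧ x 2 ≤ z0 + 1 := by
    intro c x
    simp only [hA', hZ, mem_bx, clJ_even, clJ_odd, Set.mem_Icc]
  have hd : ∀ c x, x ∈ A c → x ∉ A' c := by
    intro c x h1 h2
    rw [memA] at h1
    rw [memA'] at h2
    linarith [h1.1.2, h2.1.1, (hct c).1]
  have hblk : ∀ c x, x ∈ A c ∪ A' c → zl (4 * pos c) ≤ x 0 ∧ x 0 ≤ zr (4 * pos c + 3) := by
    intro c x hx
    have p := gg.pos_lt c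
    have o1 := hord (4 * pos c) (4 * pos c + 2) (by omega) (by omega)
    have o2 := hord (4 * pos c + 1) (4 * pos c + 3) (by omega) (by omega)
    have o3 := hle (4 * pos c) (by omega)
    have o4 := hle (4 * pos c + 3) (by omega)
    rcases hx with hx | hx
    · rw [memA] at hx
      exact ⟨hx.1.1, by linarith [hx.1.2]⟩
    · rw [memA'] at hx
      exact ⟨by linarith [hx.1.1], hx.1.2⟩
  have hd' : ∀ c c' x, x ∈ A c ∪ A' c → x ∈ A c' ∪ A' c' → c = c' := by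
    intro c c' x h1 h2
    have b1 := hblk c x h1
    have b2 := hblk c' x h2
    have p := gg.pos_lt c
    have p' := gg.pos_lt c'
    refine gg.pos_inj ?_
    rcases lt_trichotomy (pos c) (pos c') with h | h | h
    · have := hfar (4 * pos c + 3) (4 * pos c') (by omega) (by omega) (by omega)
      linarith [b1.2, b2.1]
    · exact h
    · have := hfar (4 * pos c' + 3) (4 * pos c) (by omega) (by omega) (by omega)
      linarith [b1.1, b2.2]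
  have hnr : ∀ c x y, (x ∈ A c ∧ y ∈ A' c) ∨ (x ∈ A' c ∧ y ∈ A c) →
      2 / (3 * Rn) ≤ 1 / nrm (x - y) ∧ 1 / nrm (x - y) ≤ 5 / (7 * Rn) := by
    intro c x y h
    obtain ⟨q1, q2, q3⟩ := hct c
    rcases h with ⟨h1, h2⟩ | ⟨h1, h2⟩
    · rw [memA] at h1
      rw [memA'] at h2
      obtain ⟨⟨a1, a2⟩, ⟨a3, a4⟩, a5, a6⟩ := h1
      obtain ⟨⟨b1, b2⟩, ⟨b3, b4⟩, b5, b6⟩ := h2
      refine nrm_bounds hRn ?_ ?_ ?_ ?_ ?_ <;> simp only [Pi.sub_apply, le_abs, abs_le]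
      · right; linarith
      · constructor <;> linarith
      · left; linarith
      · constructor <;> linarith
      · constructor <;> linarith
    · rw [memA'] at h1
      rw [memA] at h2
      obtain ⟨⟨a1, a2⟩, ⟨a3, a4⟩, a5, a6⟩ := h1
      obtain ⟨⟨b1, b2⟩, ⟨b3, b4⟩, b5, b6⟩ := h2
      refine nrm_bounds hRn ?_ ?_ ?_ ?_ ?_ <;> simp only [Pi.sub_apply, le_abs, abs_le]
      · left; linarith
      · constructor <;> linarith
      · right; linarith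
      · constructor <;> linarith
      · constructor <;> linarith
  set ϱ : P3 → P3 → ℝ := fun x y => if contact A A' x y = 0 then 1 / nrm (x - y) else 0 with hϱ
  have mϱ : Measurable fun p : P3 × P3 => ϱ p.1 p.2 :=
    Measurable.ite ((contact_meas mA mA') (measurableSet_singleton 0)) nrm_meas measurable_const
  have ϱ0 : ∀ x y, 0 ≤ ϱ x y := by
    intro x y
    simp only [hϱ]
    split_ifs
    · exact inv_nrm_nonneg _
    · exact le_rfl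
  have ϱle : ∀ x y, ϱ x y ≤ 1 / nrm (x - y) := by
    intro x y
    simp only [hϱ]
    split_ifs
    · exact le_rfl
    · exact inv_nrm_nonneg _
  have hKS : 2 * (K : ℝ) ^ 4 * √εz ≤ S ^ 16 * √εz := by
    have h1 : 1 ≤ S := by linarith
    have h2 : S ≤ S ^ 12 := le_self_pow₀ h1 (by norm_num)
    calc 2 * (K : ℝ) ^ 4 * √εz ≤ S ^ 12 * S ^ 4 * √εz := by gcongr; linarith
      _ = _ := by ring
  refine ⟨A, A', ϱ, mA, mA', fun c μ ν => ?_, fun c μ ν => ?_, fun x y => ?_, fun x y => ?_, mϱ,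
    ϱ0, ϱle, fun μ ν hμν => ?_⟩
  · obtain ⟨s, hs, ha⟩ := gg.ampA c
    have p := gg.pos_lt c
    exact (cont_gen orb hε c3 zb.e_supp zb.on (by omega) (by omega) (O μ) (O ν) (gg.unit μ)
      (gg.unit ν) hs (ha μ) (ha ν)).trans hKS
  · obtain ⟨s, hs, ha⟩ := gg.ampB c
    have p := gg.pos_lt c
    exact (cont_gen orb hε c3 zb.e_supp zb.on (by omega) (by omega) (O μ) (O ν) (gg.unit μ)
      (gg.unit ν) hs (ha μ) (ha ν)).trans hKS
  · by_cases h : ∃ c, (x ∈ A c ∧ y ∈ A' c) ∨ (x ∈ A' c ∧ y ∈ A c)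
    · obtain ⟨c, h⟩ := h
      rw [contact_one hd hd' h, mul_one]
      exact (hnr c x y h).1
    · rw [contact_zero h, mul_zero]
      exact inv_nrm_nonneg _
  · by_cases h : ∃ c, (x ∈ A c ∧ y ∈ A' c) ∨ (x ∈ A' c ∧ y ∈ A c)
    · obtain ⟨c, h⟩ := h
      rw [contact_one hd hd' h, mul_one]
      exact (hnr c x y h).2.trans (le_add_of_nonneg_right (ϱ0 x y))
    · simp only [hϱ, contact_zero h, mul_zero, zero_add, if_true, le_refl]
  · have hlw0 : 0 < lw := by linarith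
    refine (rem_gen orb hε (Cc := Cc) (fun k hk x => by simpa using bd_le (bd.e_bd k hk) x) c3
      (int_mul c3 c3 fun t ht => abs_le.mp (zb.e_supp t ht)) zb.on (O μ) (O ν) (gg.unit μ)
      (gg.unit ν) ϱ mϱ ϱ0 ϱle hRf hlw0 fun κ κ' hκ hκ' => ?_).trans
      (final_ineq hS (Nat.cast_nonneg K) hK hC0 hC hRf hlw hε hε1)
    have hw : ∀ k : Fin K, wide (k / 4) → ∀ a ∈ Set.Icc (zl k) (zr k), e k a ^ 2 ≤ 1 / lw :=
      fun k hk a ha => (bd.sup k k.2 a ha).trans (hwide k k.2 hk)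
    have hf : ∀ (k k' : Fin K) (a a' : ℝ), (k : ℕ) / 4 ≠ k' / 4 → a ∈ Set.Icc (zl k) (zr k) →
        a' ∈ Set.Icc (zl k') (zr k') → Rf ≤ |a - a'| := by
      intro k k' a a' hne ha ha'
      rw [le_abs]
      rcases lt_trichotomy (k : ℕ) k' with h | h | h
      · right; linarith [hfar k k' h k'.2 hne, ha.2, ha'.1]
      · exact absurd (by rw [h]) hne
      · left; linarith [hfar k' k h k.2 hne.symm, ha.1, ha'.2]
    rcases gg.sep μ ν κ κ' hκ hκ' hμν with h | h | h | h | h | h | ⟨c, h⟩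
    · exact Or.inr (Or.inl (Or.inl (hw _ h)))
    · exact Or.inr (Or.inr (Or.inl (hw _ h)))
    · exact Or.inr (Or.inl (Or.inr (hw _ h)))
    · exact Or.inr (Or.inr (Or.inr (hw _ h)))
    · exact Or.inl fun x y a1 _ a3 _ _ _ =>
        (ϱle x y).trans (inv_nrm_le_of (k := 0) hRf (hf _ _ _ _ h a1 a3))
    · exact Or.inl fun x y _ a2 _ a4 _ _ =>
        (ϱle x y).trans (inv_nrm_le_of (k := 1) hRf (hf _ _ _ _ h a2 a4))
    · refine Or.inl fun x y a1 a2 a3 a4 a5 a6 => ?_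
      have p := gg.pos_lt c
      have z1 : x 2 ∈ Z := abs_le.mp (zb.e_supp _ a5)
      have z2 : y 2 ∈ Z := abs_le.mp (zb.e_supp _ a6)
      have : (x ∈ A c ∧ y ∈ A' c) ∨ (x ∈ A' c ∧ y ∈ A c) := by
        rcases h with ⟨h1, h2, h3, h4⟩ | ⟨h1, h2, h3, h4⟩
        · exact Or.inl ⟨mem_bx.mpr ⟨orb.zone_sub (by omega) h1 a1, orb.zone_sub (by omega) h2 a2,
            z1⟩, mem_bx.mpr ⟨orb.zone_sub (by omega) h3 a3, orb.zone_sub (by omega) h4 a4, z2⟩⟩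
        · exact Or.inr ⟨mem_bx.mpr ⟨orb.zone_sub (by omega) h1 a1, orb.zone_sub (by omega) h2 a2,
            z1⟩, mem_bx.mpr ⟨orb.zone_sub (by omega) h3 a3, orb.zone_sub (by omega) h4 a4, z2⟩⟩
      simp only [hϱ, contact_one hd hd' this, one_ne_zero, if_false]
      positivity

end

end Vale.Agent.P370Z
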