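import Vale.Agent.P370Z.Basic

/-!
# P370, block GEO: overlaps of the orbitals on the contact boxes
-/

namespace Vale.Agent.P370Z.GEO

open MeasureTheory Finset

noncomputable section

lemma bd_cont {k : ℕ} {C : ℝ} {W f : ℝ → ℝ} (h : Bd k C W f) : Continuous f := by
  cases k with
  | zero => exact h.1
  | succ k => exact h.1.continuous

lemma bd_le {k : ℕ} {C : ℝ} {W f : ℝ → ℝ} (h : Bd k C W f) (x : ℝ) : |f x| ≤ C * W x := by
  cases k with
  | zero => exact h.2 x
  | succ k => exact h.2.1 x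

lemma int_mul {f g : ℝ → ℝ} (hf : Continuous f) (hg : Continuous g) {a b : ℝ}
    (hs : ∀ x, f x ≠ 0 → a ≤ x ∧ x ≤ b) : Integrable fun x => f x * g x := by
  refine (hf.mul hg).integrable_of_hasCompactSupport ?_
  refine HasCompactSupport.intro (isCompact_Icc (a := a) (b := b)) fun x hx => ?_
  by_cases h : f x = 0
  · simp [h]
  · exact absurd (hs x h) hx

lemma cs1 {f g : ℝ → ℝ} {T : Set ℝ} {ε : ℝ} (hε : 0 ≤ ε) (hf : Integrable fun x => f x * f x)
    (hg : Integrable fun x => g x * g x) (hfg : Integrable fun x => f x * g x)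
    (h1 : ∫ x in T, f x * f x ≤ ε) (h2 : ∫ x in T, g x * g x ≤ 1) :
    |∫ x in T, f x * g x| ≤ √ε := by
  refine le_of_forall_pos_le_add fun δ hδ => ?_
  set t := √ε + δ with ht
  have hs := Real.sqrt_nonneg ε
  have htp : 0 < t := by positivity
  calc |∫ x in T, f x * g x| ≤ ∫ x in T, |f x * g x| := abs_integral_le_integral_abs
    _ ≤ ∫ x in T, (1 / (2 * t) * (f x * f x) + t / 2 * (g x * g x)) := by
        refine integral_mono hfg.abs.integrableOn
          ((hf.const_mul _).add (hg.const_mul _)).integrableOn fun x => ?_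
        have : 1 / (2 * t) * (f x * f x) + t / 2 * (g x * g x) - |f x * g x| =
            (|f x| - t * |g x|) ^ 2 / (2 * t) := by
          rw [← abs_mul_abs_self (f x), ← abs_mul_abs_self (g x), abs_mul]
          field_simp; ring
        have h0 : 0 ≤ (|f x| - t * |g x|) ^ 2 / (2 * t) := by positivity
        simp only
        linarith
    _ = 1 / (2 * t) * (∫ x in T, f x * f x) + t / 2 * ∫ x in T, g x * g x := by
        rw [integral_add (hf.const_mul _).integrableOn (hg.const_mul _).integrableOn,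
          integral_const_mul, integral_const_mul]
    _ ≤ 1 / (2 * t) * ε + t / 2 * 1 := by gcongr
    _ ≤ √ε + δ := by
        have h3 : 1 / (2 * t) * ε ≤ √ε / 2 := by
          rw [div_mul_eq_mul_div, div_le_div_iff₀ (by positivity) (by positivity)]
          nlinarith [Real.mul_self_sqrt hε]
        linarith

/-- The interval spanned by the two zones of a cluster. -/
def clJ (zl zr : ℕ → ℝ) (c : ℕ) : Set ℝ := Set.Icc (zl (2 * c)) (zr (2 * c + 1))

/-- What is used about the one-dimensional orbitals. -/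
structure Orb (K : ℕ) (e : ℕ → ℝ → ℝ) (zl zr : ℕ → ℝ) (εz : ℝ) : Prop where
  cont : ∀ k < K, Continuous (e k)
  int : ∀ k < K, ∀ l < K, Integrable fun x => e k x * e l x
  on : ∀ k < K, ∀ l < K, ∫ x, e k x * e l x = idm k l
  zone : ∀ k < K, ∫ x in (Set.Icc (zl k) (zr k))ᶜ, e k x ^ 2 ≤ εz
  le : ∀ k < K, zl k ≤ zr k
  ord : ∀ k k', k < k' → k' < K → zr k ≤ zl k'

variable {K : ℕ} {e : ℕ → ℝ → ℝ} {zl zr : ℕ → ℝ} {εz : ℝ}

lemma Orb.sq_le (h : Orb K e zl zr εz) {k : ℕ} (hk : k < K) (T : Set ℝ) :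
    ∫ x in T, e k x * e k x ≤ 1 := by
  have := setIntegral_le_integral (s := T) (h.int k hk k hk)
    (Filter.Eventually.of_forall fun x => mul_self_nonneg _)
  rw [h.on k hk k hk] at this
  simpa [idm] using this

lemma Orb.out_le (h : Orb K e zl zr εz) {k : ℕ} (hk : k < K) {T : Set ℝ}
    (hT : T ≤ᵐ[volume] (Set.Icc (zl k) (zr k))ᶜ) : ∫ x in T, e k x * e k x ≤ εz := by
  refine le_trans (setIntegral_mono_set (h.int k hk k hk).integrableOn
    (Filter.Eventually.of_forall fun x => mul_self_nonneg _) hT) ?_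
  have := h.zone k hk
  simp only [sq] at this
  exact this

lemma Orb.abs_le (h : Orb K e zl zr εz) {k l : ℕ} (hk : k < K) (hl : l < K) (T : Set ℝ) :
    |∫ x in T, e k x * e l x| ≤ 1 := by
  simpa using cs1 (T := T) zero_le_one (h.int k hk k hk) (h.int l hl l hl) (h.int k hk l hl)
    (h.sq_le hk T) (h.sq_le hl T)

lemma Orb.zone_sub (h : Orb K e zl zr εz) {c k : ℕ} (hc : 2 * c + 1 < K) (hk : k / 2 = c) :
    Set.Icc (zl k) (zr k) ⊆ clJ zl zr c := by
  have h1 := h.ord (2 * c) (2 * c + 1) (by omega) hc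
  have h2 := h.le (2 * c) (by omega)
  have h3 := h.le (2 * c + 1) hc
  intro x hx
  rcases (by omega : k = 2 * c ∨ k = 2 * c + 1) with rfl | rfl
  · exact ⟨hx.1, by linarith [hx.2]⟩
  · exact ⟨by linarith [hx.1], hx.2⟩

lemma Orb.one (h : Orb K e zl zr εz) (hε : 0 ≤ εz) {c k l : ℕ} (hc : 2 * c + 1 < K) (hk : k < K)
    (hl : l < K) :
    |(∫ x in clJ zl zr c, e k x * e l x) - if k / 2 = c then idm k l else 0| ≤ √εz := by
  have mJ : MeasurableSet (clJ zl zr c) := measurableSet_Icc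
  split_ifs with hkc
  · rw [← h.on k hk l hl, ← integral_add_compl mJ (h.int k hk l hl), sub_add_cancel_left, abs_neg]
    refine cs1 hε (h.int k hk k hk) (h.int l hl l hl) (h.int k hk l hl) (h.out_le hk ?_)
      (h.sq_le hl _)
    exact LE.le.eventuallyLE (Set.compl_subset_compl.mpr (h.zone_sub hc hkc))
  · rw [sub_zero]
    refine cs1 hε (h.int k hk k hk) (h.int l hl l hl) (h.int k hk l hl) (h.out_le hk ?_)
      (h.sq_le hl _)
    have ha : ∀ᵐ t : ℝ, t ≠ zl (2 * c) := by simp [ae_iff]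
    have hb : ∀ᵐ t : ℝ, t ≠ zr (2 * c + 1) := by simp [ae_iff]
    filter_upwards [ha, hb] with t h1 h2 ht hz
    have ht' : zl (2 * c) ≤ t ∧ t ≤ zr (2 * c + 1) := ht
    rcases (by omega : k < 2 * c ∨ 2 * c + 1 < k) with h3 | h3
    · exact h1 (le_antisymm (hz.2.trans (h.ord _ _ h3 (by omega))) ht'.1)
    · exact h2 (le_antisymm ht'.2 ((h.ord _ _ h3 hk).trans hz.1))

/-- A box. -/
def bx (J0 J1 J2 : Set ℝ) : Set P3 := Set.pi Set.univ ![J0, J1, J2]

lemma mem_bx {J0 J1 J2 : Set ℝ} {x : P3} : x ∈ bx J0 J1 J2 ↔ x 0 ∈ J0 ∧ x 1 ∈ J1 ∧ x 2 ∈ J2 := by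
  simp [bx, Set.mem_pi, Fin.forall_fin_succ]

lemma bx_meas {J0 J1 J2 : Set ℝ} (h0 : MeasurableSet J0) (h1 : MeasurableSet J1)
    (h2 : MeasurableSet J2) : MeasurableSet (bx J0 J1 J2) :=
  MeasurableSet.univ_pi fun i => by fin_cases i <;> assumption

lemma bx_compact {J0 J1 J2 : Set ℝ} (h0 : IsCompact J0) (h1 : IsCompact J1)
    (h2 : IsCompact J2) : IsCompact (bx J0 J1 J2) :=
  isCompact_univ_pi fun i => by fin_cases i <;> assumption

lemma int_bx (J0 J1 J2 : Set ℝ) (g0 g1 g2 : ℝ → ℝ) :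
    ∫ x in bx J0 J1 J2, g0 (x 0) * g1 (x 1) * g2 (x 2) =
      (∫ t in J0, g0 t) * (∫ t in J1, g1 t) * ∫ t in J2, g2 t := by
  have := integral_fintype_prod_eq_prod (𝕜 := ℝ) (E := fun _ : Fin 3 => ℝ) ![g0, g1, g2]
    (μ := fun i => (volume : Measure ℝ).restrict (![J0, J1, J2] i))
  rw [← Measure.restrict_pi_pi] at this
  simpa [Fin.prod_univ_three, bx, volume_pi] using this

lemma count2 {c : ℕ} (hc : 2 * c + 1 < K) :
    ∑ k : Fin K, (if (k : ℕ) / 2 = c then (1 : ℝ) else 0) = 2 := by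
  rw [Fin.sum_univ_eq_sum_range (fun k => if k / 2 = c then (1 : ℝ) else 0) K, sum_boole]
  have : (range K).filter (fun k => k / 2 = c) = {2 * c, 2 * c + 1} := by
    ext k; simp only [mem_filter, mem_range, mem_insert, mem_singleton]; omega
  rw [this, card_pair (by omega)]; norm_num

lemma abs_le_one_of_unit {R : Type} [Fintype R] {O : R → ℝ} (h : ∑ κ, O κ ^ 2 = 1) (κ : R) :
    |O κ| ≤ 1 := by
  have := Finset.single_le_sum (f := fun κ => O κ ^ 2) (fun _ _ => sq_nonneg _) (mem_univ κ)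
  rw [h] at this
  exact (sq_le_one_iff_abs_le_one _).mp this

theorem cont_gen (h : Orb K e zl zr εz) (hε : 0 ≤ εz) {e3 : ℝ → ℝ} (h3 : Continuous e3) {z : ℝ}
    (h3s : ∀ t, e3 t ≠ 0 → |t| ≤ z) (h3o : ∫ t, e3 t * e3 t = 1) {c0 c1 : ℕ}
    (hc0 : 2 * c0 + 1 < K) (hc1 : 2 * c1 + 1 < K) (O O' : Fin K × Fin K → ℝ)
    (hO : ∑ κ, O κ ^ 2 = 1) (hO' : ∑ κ, O' κ ^ 2 = 1) {s a b : ℝ} (hs : s ^ 2 = 1)
    (ha : ∀ κ : Fin K × Fin K, (κ.1 : ℕ) / 2 = c0 → (κ.2 : ℕ) / 2 = c1 → O κ = s * a / 2)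
    (hb : ∀ κ : Fin K × Fin K, (κ.1 : ℕ) / 2 = c0 → (κ.2 : ℕ) / 2 = c1 → O' κ = s * b / 2) :
    |(∫ x in bx (clJ zl zr c0) (clJ zl zr c1) (Set.Icc (-z) z),
      comb O (prodOrb e e3) x * comb O' (prodOrb e e3) x) - a * b| ≤ 2 * (K : ℝ) ^ 4 * √εz := by
  have hz : ∫ t in Set.Icc (-z) z, e3 t * e3 t = 1 := by
    rw [← h3o]
    refine setIntegral_eq_integral_of_forall_compl_eq_zero fun t ht => ?_
    by_cases h0 : e3 t = 0
    · simp [h0]
    · exact absurd (abs_le.mp (h3s t h0)) ht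
  have cpt : IsCompact (bx (clJ zl zr c0) (clJ zl zr c1) (Set.Icc (-z) z)) :=
    bx_compact isCompact_Icc isCompact_Icc isCompact_Icc
  have hint : ∀ κ κ' : Fin K × Fin K, IntegrableOn
      (fun x : P3 => O κ * O' κ' * ((e κ.1 (x 0) * e κ'.1 (x 0)) * (e κ.2 (x 1) * e κ'.2 (x 1)) *
        (e3 (x 2) * e3 (x 2)))) (bx (clJ zl zr c0) (clJ zl zr c1) (Set.Icc (-z) z)) := by
    intro κ κ'
    have := h.cont _ κ.1.2
    have := h.cont _ κ.2.2
    have := h.cont _ κ'.1.2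
    have := h.cont _ κ'.2.2
    exact ContinuousOn.integrableOn_compact cpt (Continuous.continuousOn (by fun_prop))
  have e1 : (∫ x in bx (clJ zl zr c0) (clJ zl zr c1) (Set.Icc (-z) z),
      comb O (prodOrb e e3) x * comb O' (prodOrb e e3) x) =
      ∑ κ : Fin K × Fin K, ∑ κ' : Fin K × Fin K, O κ * O' κ' *
        ((∫ t in clJ zl zr c0, e κ.1 t * e κ'.1 t) * ∫ t in clJ zl zr c1, e κ.2 t * e κ'.2 t) := by
    have : ∀ x : P3, comb O (prodOrb e e3) x * comb O' (prodOrb e e3) x =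
        ∑ κ : Fin K × Fin K, ∑ κ' : Fin K × Fin K, O κ * O' κ' *
          ((e κ.1 (x 0) * e κ'.1 (x 0)) * (e κ.2 (x 1) * e κ'.2 (x 1)) *
            (e3 (x 2) * e3 (x 2))) := by
      intro x
      simp only [comb, prodOrb, sum_mul_sum]
      refine sum_congr rfl fun κ _ => sum_congr rfl fun κ' _ => by ring
    simp only [this]
    rw [integral_finsetSum _ fun κ _ => integrable_finsetSum _ fun κ' _ => hint κ κ']
    refine sum_congr rfl fun κ _ => ?_
    rw [integral_finsetSum _ fun κ' _ => hint κ κ']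
    refine sum_congr rfl fun κ' _ => ?_
    rw [integral_const_mul, int_bx _ _ _ (fun t => e κ.1 t * e κ'.1 t) (fun t => e κ.2 t * e κ'.2 t)
      (fun t => e3 t * e3 t), hz, mul_one]
  have e2 : a * b = ∑ κ : Fin K × Fin K, ∑ κ' : Fin K × Fin K, O κ * O' κ' *
      ((if (κ.1 : ℕ) / 2 = c0 then idm (κ.1 : ℕ) κ'.1 else 0) *
        if (κ.2 : ℕ) / 2 = c1 then idm (κ.2 : ℕ) κ'.2 else 0) := by
    have : ∀ κ : Fin K × Fin K, ∑ κ' : Fin K × Fin K, O κ * O' κ' *
        ((if (κ.1 : ℕ) / 2 = c0 then idm (κ.1 : ℕ) κ'.1 else 0) *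
          if (κ.2 : ℕ) / 2 = c1 then idm (κ.2 : ℕ) κ'.2 else 0) =
        a * b / 4 * ((if (κ.1 : ℕ) / 2 = c0 then (1 : ℝ) else 0) *
          if (κ.2 : ℕ) / 2 = c1 then (1 : ℝ) else 0) := by
      intro κ
      rw [sum_eq_single κ]
      · by_cases g0 : (κ.1 : ℕ) / 2 = c0
        · by_cases g1 : (κ.2 : ℕ) / 2 = c1
          · rw [ha κ g0 g1, hb κ g0 g1]
            simp only [g0, g1, idm, if_true]
            linear_combination a * b / 4 * hs
          · simp [g1]
        · simp [g0]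
      · intro κ' _ hne
        by_cases g0 : κ.1 = κ'.1
        · have g1 : (κ.2 : ℕ) ≠ κ'.2 := fun g1 => hne (Prod.ext g0.symm (Fin.ext g1).symm)
          simp [idm, g1]
        · have g1 : (κ.1 : ℕ) ≠ κ'.1 := fun g1 => g0 (Fin.ext g1)
          simp [idm, g1]
      · simp
    simp only [this]
    have e4 : ∑ κ : Fin K × Fin K, ((if (κ.1 : ℕ) / 2 = c0 then (1 : ℝ) else 0) *
        if (κ.2 : ℕ) / 2 = c1 then (1 : ℝ) else 0) = 2 * 2 := by
      have := sum_mul_sum (univ : Finset (Fin K)) (univ : Finset (Fin K))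
        (fun k => if (k : ℕ) / 2 = c0 then (1 : ℝ) else 0)
        (fun k => if (k : ℕ) / 2 = c1 then (1 : ℝ) else 0)
      rw [count2 hc0, count2 hc1] at this
      rw [Fintype.sum_prod_type]
      exact this.symm
    rw [← mul_sum, e4]
    ring
  rw [e1, e2, ← sum_sub_distrib]
  simp only [← sum_sub_distrib]
  have hs0 := Real.sqrt_nonneg εz
  calc _ ≤ ∑ _κ : Fin K × Fin K, ∑ _κ' : Fin K × Fin K, 2 * √εz := by
        refine (abs_sum_le_sum_abs _ _).trans (sum_le_sum fun κ _ => ?_)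
        refine (abs_sum_le_sum_abs _ _).trans (sum_le_sum fun κ' _ => ?_)
        have u1 := abs_le_one_of_unit hO κ
        have u2 := abs_le_one_of_unit hO' κ'
        have u3 := h.one hε hc0 κ.1.2 κ'.1.2
        have u4 := h.one hε hc1 κ.2.2 κ'.2.2
        have u5 := h.abs_le κ.2.2 κ'.2.2 (clJ zl zr c1)
        have u6 : |if (κ.1 : ℕ) / 2 = c0 then idm (κ.1 : ℕ) κ'.1 else 0| ≤ 1 := by
          unfold idm; split_ifs <;> simp
        generalize (∫ t in clJ zl zr c0, e κ.1 t * e κ'.1 t) = p at *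
        generalize (∫ t in clJ zl zr c1, e κ.2 t * e κ'.2 t) = q at *
        generalize (if (κ.1 : ℕ) / 2 = c0 then idm (κ.1 : ℕ) κ'.1 else 0) = p' at *
        generalize (if (κ.2 : ℕ) / 2 = c1 then idm (κ.2 : ℕ) κ'.2 else 0) = q' at *
        rw [← mul_sub, abs_mul, abs_mul, show p * q - p' * q' = (p - p') * q + p' * (q - q') by ring]
        calc _ ≤ 1 * 1 * (|p - p'| * |q| + |p'| * |q - q'|) := by
              gcongr
              rw [← abs_mul, ← abs_mul]; exact abs_add_le _ _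
          _ ≤ 1 * 1 * (√εz * 1 + 1 * √εz) := by gcongr
          _ = _ := by ring
    _ = _ := by simp; ring

end

end Vale.Agent.P370Z.GEO
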