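import Vale.Agent.P370Z.Basic

/-!
# P370, block GEO: product integrals and the kernel `|t|^(-1/2)`
-/

namespace Vale.Agent.P370Z.GEO

open MeasureTheory Finset
open scoped ENNReal

noncomputable section

lemma lint3 {X : Type} [MeasureSpace X] [SigmaFinite (volume : Measure X)]
    (G0 G1 G2 : X → ℝ≥0∞) (h0 : Measurable G0) (h1 : Measurable G1) (h2 : Measurable G2) :
    ∫⁻ q : Fin 3 → X, G0 (q 0) * G1 (q 1) * G2 (q 2) =
      (∫⁻ x, G0 x) * (∫⁻ x, G1 x) * ∫⁻ x, G2 x := by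
  have hp := volume_preserving_piFinSuccAbove (fun _ : Fin 3 => X) 0
  have hq := volume_preserving_finTwoArrow X
  have e1 : ∫⁻ q : Fin 3 → X, G0 (q 0) * G1 (q 1) * G2 (q 2) =
      ∫⁻ p : X × (Fin 2 → X), G0 p.1 * (G1 (p.2 0) * G2 (p.2 1)) := by
    rw [← hp.lintegral_comp_emb (MeasurableEquiv.measurableEmbedding _)]
    refine lintegral_congr fun q => ?_
    simp [MeasurableEquiv.piFinSuccAbove, mul_assoc, Fin.tail]
  have e2 : ∫⁻ r : Fin 2 → X, G1 (r 0) * G2 (r 1) = (∫⁻ x, G1 x) * ∫⁻ x, G2 x := by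
    rw [← lintegral_prod_mul h1.aemeasurable h2.aemeasurable,
      ← Measure.volume_eq_prod, ← hq.lintegral_comp_emb (MeasurableEquiv.measurableEmbedding _)]
    refine lintegral_congr fun q => ?_
    simp [MeasurableEquiv.finTwoArrow]
  rw [e1, Measure.volume_eq_prod,
    lintegral_prod_mul (f := G0) (g := fun r : Fin 2 → X => G1 (r 0) * G2 (r 1))
      h0.aemeasurable (by fun_prop), e2, mul_assoc]

lemma lint6 (G0 G1 G2 : ℝ × ℝ → ℝ≥0∞) (h0 : Measurable G0) (h1 : Measurable G1)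
    (h2 : Measurable G2) :
    ∫⁻ p : P3 × P3, G0 (p.1 0, p.2 0) * G1 (p.1 1, p.2 1) * G2 (p.1 2, p.2 2) =
      (∫⁻ x, G0 x) * (∫⁻ x, G1 x) * ∫⁻ x, G2 x := by
  have hp := volume_measurePreserving_arrowProdEquivProdArrow ℝ ℝ (Fin 3)
  rw [← lint3 G0 G1 G2 h0 h1 h2, ← hp.lintegral_comp_emb (MeasurableEquiv.measurableEmbedding _)]
  refine lintegral_congr fun q => ?_
  simp [MeasurableEquiv.arrowProdEquivProdArrow, Equiv.arrowProdEquivProdArrow]

/-- The kernel `|t|^(-1/2)`, infinite at `0`. -/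
def hE (t : ℝ) : ℝ≥0∞ := (ENNReal.ofReal √|t|)⁻¹

lemma hE_meas : Measurable hE := by unfold hE; fun_prop

lemma hE_neg (t : ℝ) : hE (-t) = hE t := by simp [hE]

lemma hE_ne_zero (t : ℝ) : hE t ≠ 0 := by simp [hE]

lemma hE_le_one {t : ℝ} (h : 1 ≤ |t|) : hE t ≤ 1 := by
  unfold hE
  rw [ENNReal.inv_le_one, ENNReal.one_le_ofReal]
  exact Real.one_le_sqrt.mpr h

lemma hE_eq {t : ℝ} (h : 0 < t) : hE t = ENNReal.ofReal (t ^ (-(1 / 2) : ℝ)) := by
  unfold hE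
  rw [abs_of_pos h, Real.rpow_neg h.le, ← Real.sqrt_eq_rpow,
    ENNReal.ofReal_inv_of_pos (Real.sqrt_pos.mpr h)]

lemma lint_hE_pos {s : ℝ} (hs : 0 < s) :
    ∫⁻ t in Set.Ioo 0 s, hE t = ENNReal.ofReal (2 * √s) := by
  have hi : IntervalIntegrable (fun t : ℝ => t ^ (-(1 / 2) : ℝ)) volume 0 s :=
    intervalIntegral.intervalIntegrable_rpow' (by norm_num)
  have hi' : IntegrableOn (fun t : ℝ => t ^ (-(1 / 2) : ℝ)) (Set.Ioo 0 s) :=
    (intervalIntegrable_iff_integrableOn_Ioo_of_le hs.le).mp hi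
  rw [setLIntegral_congr_fun measurableSet_Ioo (fun t ht => hE_eq ht.1),
    ← ofReal_integral_eq_lintegral_ofReal hi' ?_]
  · congr 1
    rw [← integral_Ioc_eq_integral_Ioo, ← intervalIntegral.integral_of_le hs.le,
      integral_rpow (Or.inl (by norm_num))]
    rw [Real.zero_rpow (by norm_num), Real.sqrt_eq_rpow]
    norm_num
    ring
  · filter_upwards [ae_restrict_mem measurableSet_Ioo] with t ht
    exact Real.rpow_nonneg ht.1.le _

/-- The kernel cut off at `s`. -/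
def hC (s t : ℝ) : ℝ≥0∞ := (Set.Ioo (-s) s).indicator hE t

lemma hC_meas (s : ℝ) : Measurable (hC s) := hE_meas.indicator measurableSet_Ioo

lemma hC_neg (s t : ℝ) : hC s (-t) = hC s t := by
  unfold hC
  by_cases h : t ∈ Set.Ioo (-s) s
  · have h' : -t ∈ Set.Ioo (-s) s := ⟨by linarith [h.2], by linarith [h.1]⟩
    rw [Set.indicator_of_mem h, Set.indicator_of_mem h', hE_neg]
  · have h' : -t ∉ Set.Ioo (-s) s := fun h' => h ⟨by linarith [h'.2], by linarith [h'.1]⟩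
    rw [Set.indicator_of_notMem h, Set.indicator_of_notMem h']

lemma hC_of_lt {s t : ℝ} (h : |t| < s) : hC s t = hE t :=
  Set.indicator_of_mem (by simpa [Set.mem_Ioo] using abs_lt.mp h) _

lemma lint_hC {s : ℝ} (hs : 0 < s) : ∫⁻ t, hC s t ≤ ENNReal.ofReal (4 * √s) := by
  have hm : Measurable ((Set.Ioo 0 s).indicator hE) := hE_meas.indicator measurableSet_Ioo
  have h1 : ∫⁻ t, (Set.Ioo 0 s).indicator hE t = ENNReal.ofReal (2 * √s) := by
    rw [lintegral_indicator measurableSet_Ioo, lint_hE_pos hs]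
  have h2 : ∫⁻ t, (Set.Ioo 0 s).indicator hE (-t) = ENNReal.ofReal (2 * √s) := by
    rw [lintegral_neg_eq_self, h1]
  have hae : ∀ᵐ t : ℝ, t ≠ 0 := by
    simp [ae_iff]
  calc ∫⁻ t, hC s t
      ≤ ∫⁻ t, ((Set.Ioo 0 s).indicator hE t + (Set.Ioo 0 s).indicator hE (-t)) := by
        refine lintegral_mono_ae ?_
        filter_upwards [hae] with t ht
        unfold hC
        by_cases h : t ∈ Set.Ioo (-s) s
        · rw [Set.indicator_of_mem h]
          rcases lt_or_gt_of_ne ht with h0 | h0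
          · have : -t ∈ Set.Ioo 0 s := ⟨by linarith, by linarith [h.1]⟩
            rw [Set.indicator_of_mem this, hE_neg]
            exact le_add_self
          · have : t ∈ Set.Ioo 0 s := ⟨h0, h.2⟩
            rw [Set.indicator_of_mem this]
            exact le_self_add
        · rw [Set.indicator_of_notMem h]; exact zero_le
    _ = ENNReal.ofReal (2 * √s) + ENNReal.ofReal (2 * √s) := by
        rw [lintegral_add_left hm, h1, h2]
    _ = ENNReal.ofReal (4 * √s) := by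
        rw [← ENNReal.ofReal_add (by positivity) (by positivity)]; congr 1; ring

lemma hE_le (t : ℝ) : hE t ≤ 1 + hC 1 t := by
  by_cases h : |t| < 1
  · rw [hC_of_lt h]; exact le_add_self
  · exact (hE_le_one (not_lt.mp h)).trans le_self_add

/-- convolution with the cut kernel -/
lemma conv_hC {s : ℝ} (hs : 0 < s) (ψ : ℝ → ℝ≥0∞) (M : ℝ≥0∞) (hψ : ∀ b, ψ b ≤ M) (a : ℝ) :
    ∫⁻ b, ψ b * hC s (a - b) ≤ M * ENNReal.ofReal (4 * √s) := by
  calc ∫⁻ b, ψ b * hC s (a - b) ≤ ∫⁻ b, M * hC s (a - b) :=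
        lintegral_mono fun b => by gcongr; exact hψ b
    _ = M * ∫⁻ b, hC s (a - b) :=
        lintegral_const_mul _ ((hC_meas s).comp (f := fun b => a - b) (by fun_prop))
    _ = M * ∫⁻ b, hC s b := by rw [lintegral_sub_left_eq_self]
    _ ≤ _ := by gcongr; exact lint_hC hs

/-- convolution with the full kernel -/
lemma conv_hE (ψ : ℝ → ℝ≥0∞) (hm : Measurable ψ) (M : ℝ≥0∞) (hψ : ∀ b, ψ b ≤ M)
    (h1 : ∫⁻ b, ψ b ≤ 1) (a : ℝ) : ∫⁻ b, ψ b * hE (a - b) ≤ 1 + M * 4 := by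
  calc ∫⁻ b, ψ b * hE (a - b) ≤ ∫⁻ b, (ψ b + ψ b * hC 1 (a - b)) := by
        refine lintegral_mono fun b => ?_
        calc ψ b * hE (a - b) ≤ ψ b * (1 + hC 1 (a - b)) := by gcongr; exact hE_le _
          _ = _ := by rw [mul_add, mul_one]
    _ = (∫⁻ b, ψ b) + ∫⁻ b, ψ b * hC 1 (a - b) := lintegral_add_left hm _
    _ ≤ 1 + M * 4 := by
        gcongr
        simpa using conv_hC one_pos ψ M hψ a

/-- two-dimensional integrals with an even kernel -/
lemma lint2_left (φ ψ w : ℝ → ℝ≥0∞) (hφ : Measurable φ) (hψ : Measurable ψ) (hw : Measurable w)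
    (M : ℝ≥0∞) (h : ∀ a, ∫⁻ b, ψ b * w (a - b) ≤ M) :
    ∫⁻ p : ℝ × ℝ, φ p.1 * ψ p.2 * w (p.1 - p.2) ≤ (∫⁻ a, φ a) * M := by
  rw [Measure.volume_eq_prod, lintegral_prod _ (by fun_prop), ← lintegral_mul_const _ hφ]
  refine lintegral_mono fun a => ?_
  simp only [mul_assoc]
  rw [lintegral_const_mul _ (by fun_prop)]
  gcongr
  exact h a

lemma lint2_right (φ ψ w : ℝ → ℝ≥0∞) (hφ : Measurable φ) (hψ : Measurable ψ) (hw : Measurable w)
    (hev : ∀ t, w (-t) = w t) (M : ℝ≥0∞) (h : ∀ a, ∫⁻ b, φ b * w (a - b) ≤ M) :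
    ∫⁻ p : ℝ × ℝ, φ p.1 * ψ p.2 * w (p.1 - p.2) ≤ (∫⁻ a, ψ a) * M := by
  have := lint2_left ψ φ w hψ hφ hw M h
  rw [Measure.volume_eq_prod, ← lintegral_prod_swap] at this
  rw [Measure.volume_eq_prod]
  refine le_of_eq_of_le (lintegral_congr fun p => ?_) this
  simp only [Prod.fst_swap, Prod.snd_swap]
  rw [← hev (p.1 - p.2), neg_sub, mul_comm (φ p.1)]

lemma lint2_one (φ ψ : ℝ → ℝ≥0∞) (hφ : Measurable φ) (hψ : Measurable ψ)
    (h1 : ∫⁻ a, φ a ≤ 1) (h2 : ∫⁻ a, ψ a ≤ 1) : ∫⁻ p : ℝ × ℝ, φ p.1 * ψ p.2 ≤ 1 := by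
  rw [Measure.volume_eq_prod, lintegral_prod_mul hφ.aemeasurable hψ.aemeasurable]
  exact mul_le_one' h1 h2

lemma inv_nrm_le (x : P3) : ENNReal.ofReal (1 / nrm x) ≤ hE (x 0) * hE (x 1) := by
  by_cases h0 : x 0 = 0
  · have : hE (x 0) = ⊤ := by simp [hE, h0]
    rw [this, ENNReal.top_mul (hE_ne_zero _)]; exact le_top
  by_cases h1 : x 1 = 0
  · have : hE (x 1) = ⊤ := by simp [hE, h1]
    rw [this, ENNReal.mul_top (hE_ne_zero _)]; exact le_top
  have p0 : 0 < √|x 0| := Real.sqrt_pos.mpr (abs_pos.mpr h0)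
  have p1 : 0 < √|x 1| := Real.sqrt_pos.mpr (abs_pos.mpr h1)
  unfold hE
  rw [← ENNReal.ofReal_inv_of_pos p0, ← ENNReal.ofReal_inv_of_pos p1,
    ← ENNReal.ofReal_mul (by positivity), ← mul_inv, one_div]
  refine ENNReal.ofReal_le_ofReal (inv_anti₀ (by positivity) ?_)
  rw [← Real.sqrt_mul (abs_nonneg _)]
  unfold nrm
  refine Real.sqrt_le_sqrt ?_
  rw [Fin.sum_univ_three]
  nlinarith [sq_abs (x 0), sq_abs (x 1), sq_nonneg (|x 0| - |x 1|), sq_nonneg (x 2),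
    mul_nonneg (abs_nonneg (x 0)) (abs_nonneg (x 1))]

lemma abs_le_nrm (x : P3) (k : Fin 3) : |x k| ≤ nrm x := by
  unfold nrm
  refine Real.abs_le_sqrt ?_
  exact Finset.single_le_sum (f := fun k => x k ^ 2) (fun _ _ => sq_nonneg _) (mem_univ k)

lemma inv_nrm_le_of {x : P3} {k : Fin 3} {s : ℝ} (hs : 0 < s) (h : s ≤ |x k|) :
    1 / nrm x ≤ 1 / s :=
  one_div_le_one_div_of_le hs (h.trans (abs_le_nrm x k))

end

end Vale.Agent.P370Z.GEO
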