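import Vale.Agent.P370Z.GEO.Lint

/-!
# P370, block GEO: the remainder of the repulsion between two product orbitals
-/

namespace Vale.Agent.P370Z.GEO

open MeasureTheory Finset
open scoped ENNReal

noncomputable section

/-- A bounded density of mass at most one, with mass at most `ε` outside `z`. -/
structure Dn (M ε : ℝ≥0∞) (φ : ℝ → ℝ≥0∞) (z : Set ℝ) : Prop where
  meas : Measurable φ
  mz : MeasurableSet z
  le : ∀ a, φ a ≤ M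
  one : ∫⁻ a, φ a ≤ 1
  out : ∫⁻ a in zᶜ, φ a ≤ ε

def fP (φ ψ : ℝ → ℝ≥0∞) (q : ℝ × ℝ) : ℝ≥0∞ := φ q.1 * ψ q.2

def fQ (φ ψ : ℝ → ℝ≥0∞) (q : ℝ × ℝ) : ℝ≥0∞ := φ q.1 * ψ q.2 * hE (q.1 - q.2)

def fB (φ ψ : ℝ → ℝ≥0∞) (z w : Set ℝ) (q : ℝ × ℝ) : ℝ≥0∞ :=
  fQ (zᶜ.indicator φ) ψ q + fQ φ (wᶜ.indicator ψ) q

def fV (s : ℝ) (φ ψ : ℝ → ℝ≥0∞) (z w : Set ℝ) (q : ℝ × ℝ) : ℝ≥0∞ :=
  z.indicator φ q.1 * w.indicator ψ q.2 * hC s (q.1 - q.2)

lemma fP_meas {φ ψ : ℝ → ℝ≥0∞} (h : Measurable φ) (h' : Measurable ψ) : Measurable (fP φ ψ) := by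
  unfold fP; fun_prop

lemma fQ_meas {φ ψ : ℝ → ℝ≥0∞} (h : Measurable φ) (h' : Measurable ψ) : Measurable (fQ φ ψ) := by
  have := hE_meas
  unfold fQ; fun_prop

variable {M ε : ℝ≥0∞} {φ ψ : ℝ → ℝ≥0∞} {z w : Set ℝ}

lemma fB_meas (h : Dn M ε φ z) (h' : Dn M ε ψ w) : Measurable (fB φ ψ z w) :=
  (fQ_meas (h.meas.indicator h.mz.compl) h'.meas).add
    (fQ_meas h.meas (h'.meas.indicator h'.mz.compl))

lemma fV_meas (s : ℝ) (h : Dn M ε φ z) (h' : Dn M ε ψ w) : Measurable (fV s φ ψ z w) := by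
  have h1 := h.meas.indicator h.mz
  have h2 := h'.meas.indicator h'.mz
  have := hC_meas s
  unfold fV; fun_prop

lemma lint_fQ (h : Dn M ε φ z) (h' : Dn M ε ψ w) : ∫⁻ q, fQ φ ψ q ≤ 1 + M * 4 := by
  refine (lint2_left φ ψ hE h.meas h'.meas hE_meas _
    (conv_hE ψ h'.meas M h'.le h'.one)).trans ?_
  calc _ ≤ 1 * (1 + M * 4) := by gcongr; exact h.one
    _ = _ := one_mul _

lemma lint_fB (h : Dn M ε φ z) (h' : Dn M ε ψ w) :
    ∫⁻ q, fB φ ψ z w q ≤ 2 * ε * (1 + M * 4) := by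
  unfold fB
  rw [lintegral_add_left (fQ_meas (h.meas.indicator h.mz.compl) h'.meas), two_mul, add_mul]
  refine add_le_add ?_ ?_
  · refine (lint2_left _ ψ hE (h.meas.indicator h.mz.compl) h'.meas hE_meas _
      (conv_hE ψ h'.meas M h'.le h'.one)).trans ?_
    rw [lintegral_indicator h.mz.compl]
    gcongr; exact h.out
  · refine (lint2_right φ _ hE h.meas (h'.meas.indicator h'.mz.compl) hE_meas hE_neg _
      (conv_hE φ h.meas M h.le h.one)).trans ?_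
    rw [lintegral_indicator h'.mz.compl]
    gcongr; exact h'.out

lemma lint_fV {s : ℝ} (hs : 0 < s) (h : Dn M ε φ z) (h' : Dn M ε ψ w) {m : ℝ≥0∞}
    (hm : (∀ a ∈ z, φ a ≤ m) ∨ ∀ a ∈ w, ψ a ≤ m) :
    ∫⁻ q, fV s φ ψ z w q ≤ m * ENNReal.ofReal (4 * √s) := by
  have h1 := h.meas.indicator h.mz
  have h2 := h'.meas.indicator h'.mz
  have hi : ∀ {φ : ℝ → ℝ≥0∞} {z : Set ℝ}, (∀ a ∈ z, φ a ≤ m) → ∀ a, z.indicator φ a ≤ m := by
    intro φ z hh a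
    by_cases ha : a ∈ z
    · rw [Set.indicator_of_mem ha]; exact hh a ha
    · rw [Set.indicator_of_notMem ha]; exact zero_le
  have ho : ∀ {φ : ℝ → ℝ≥0∞} {z : Set ℝ}, ∫⁻ a, φ a ≤ 1 → ∫⁻ a, z.indicator φ a ≤ 1 :=
    fun hh => (lintegral_mono fun a => Set.indicator_le_self _ _ a).trans hh
  rcases hm with hm | hm
  · refine (lint2_right _ _ (hC s) h1 h2 (hC_meas s) (hC_neg s) _
      (conv_hC hs _ m (hi hm))).trans ?_
    calc _ ≤ 1 * (m * ENNReal.ofReal (4 * √s)) := by gcongr; exact ho h'.one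
      _ = _ := one_mul _
  · refine (lint2_left _ _ (hC s) h1 h2 (hC_meas s) _ (conv_hC hs _ m (hi hm))).trans ?_
    calc _ ≤ 1 * (m * ENNReal.ofReal (4 * √s)) := by gcongr; exact ho h.one
      _ = _ := one_mul _

lemma fQ_le_fB {q : ℝ × ℝ} (h : ¬ (q.1 ∈ z ∧ q.2 ∈ w)) : fQ φ ψ q ≤ fB φ ψ z w q := by
  unfold fB
  by_cases h1 : q.1 ∈ z
  · have h2 : q.2 ∈ wᶜ := fun h2 => h ⟨h1, h2⟩
    refine le_trans (le_of_eq ?_) le_add_self
    simp only [fQ, Set.indicator_of_mem h2]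
  · have h2 : q.1 ∈ zᶜ := h1
    refine le_trans (le_of_eq ?_) le_self_add
    simp only [fQ, Set.indicator_of_mem h2]

lemma fV_eq {s : ℝ} {q : ℝ × ℝ} (h1 : q.1 ∈ z) (h2 : q.2 ∈ w) (h : |q.1 - q.2| < s) :
    fV s φ ψ z w q = fQ φ ψ q := by
  simp only [fV, fQ, Set.indicator_of_mem h1, Set.indicator_of_mem h2, hC_of_lt h]

theorem pair_bound {φ0 φ1 ψ0 ψ1 χ : ℝ → ℝ≥0∞} {z0 z1 w0 w1 : Set ℝ}
    (a0 : Dn M ε φ0 z0) (a1 : Dn M ε φ1 z1) (b0 : Dn M ε ψ0 w0) (b1 : Dn M ε ψ1 w1)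
    (hχ : Measurable χ) (hχ1 : ∫⁻ a, χ a ≤ 1) (r : P3 × P3 → ℝ≥0∞) (c m : ℝ≥0∞) {s : ℝ}
    (hs : 0 < s) (hr : ∀ p, r p ≤ hE (p.1 0 - p.2 0) * hE (p.1 1 - p.2 1))
    (hs0 : ∀ p, s ≤ |p.1 0 - p.2 0| → r p ≤ c) (hs1 : ∀ p, s ≤ |p.1 1 - p.2 1| → r p ≤ c)
    (hc : (∀ p : P3 × P3, p.1 0 ∈ z0 → p.1 1 ∈ z1 → p.2 0 ∈ w0 → p.2 1 ∈ w1 → χ (p.1 2) ≠ 0 →
      χ (p.2 2) ≠ 0 → r p ≤ c) ∨ ((∀ a ∈ z0, φ0 a ≤ m) ∨ ∀ a ∈ w0, ψ0 a ≤ m) ∨
      ((∀ a ∈ z1, φ1 a ≤ m) ∨ ∀ a ∈ w1, ψ1 a ≤ m)) :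
    ∫⁻ p : P3 × P3, φ0 (p.1 0) * φ1 (p.1 1) * χ (p.1 2) * (ψ0 (p.2 0) * ψ1 (p.2 1) * χ (p.2 2)) *
      r p ≤ c + 4 * ε * (1 + M * 4) ^ 2 + m * ENNReal.ofReal (4 * √s) * (1 + M * 4) := by
  set Φ : P3 × P3 → ℝ≥0∞ := fun p =>
    fP φ0 ψ0 (p.1 0, p.2 0) * fP φ1 ψ1 (p.1 1, p.2 1) * fP χ χ (p.1 2, p.2 2) with hΦ
  have hP2 : ∫⁻ q, fP χ χ q ≤ 1 := lint2_one χ χ hχ hχ hχ1 hχ1
  have mP2 := fP_meas hχ hχ
  have hQ : ∀ p : P3 × P3, Φ p * r p ≤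
      fQ φ0 ψ0 (p.1 0, p.2 0) * fQ φ1 ψ1 (p.1 1, p.2 1) * fP χ χ (p.1 2, p.2 2) := by
    intro p
    calc Φ p * r p ≤ Φ p * (hE (p.1 0 - p.2 0) * hE (p.1 1 - p.2 1)) := by gcongr; exact hr p
      _ = _ := by simp only [hΦ, fP, fQ]; ring
  obtain ⟨X, mX, iX, hX⟩ : ∃ X : P3 × P3 → ℝ≥0∞, Measurable X ∧
      ∫⁻ p, X p ≤ m * ENNReal.ofReal (4 * √s) * (1 + M * 4) ∧
      ∀ p : P3 × P3, p.1 0 ∈ z0 → p.1 1 ∈ z1 → p.2 0 ∈ w0 → p.2 1 ∈ w1 →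
        Φ p * r p ≤ c * Φ p + X p := by
    rcases hc with hc | hc | hc
    · refine ⟨0, measurable_zero, by simp, fun p h1 h2 h3 h4 => ?_⟩
      by_cases h5 : χ (p.1 2) = 0
      · simp [hΦ, fP, h5]
      by_cases h6 : χ (p.2 2) = 0
      · simp [hΦ, fP, h6]
      rw [mul_comm c, Pi.zero_apply, add_zero]
      gcongr
      exact hc p h1 h2 h3 h4 h5 h6
    · have mV := fV_meas s a0 b0
      have mQ := fQ_meas a1.meas b1.meas
      refine ⟨fun p => fV s φ0 ψ0 z0 w0 (p.1 0, p.2 0) * fQ φ1 ψ1 (p.1 1, p.2 1) *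
        fP χ χ (p.1 2, p.2 2), by fun_prop, ?_, fun p h1 h2 h3 h4 => ?_⟩
      · rw [lint6 _ _ _ mV mQ mP2]
        calc _ ≤ m * ENNReal.ofReal (4 * √s) * (1 + M * 4) * 1 := by
              gcongr
              · exact lint_fV hs a0 b0 hc
              · exact lint_fQ a1 b1
          _ = _ := mul_one _
      · by_cases hd : s ≤ |p.1 0 - p.2 0|
        · refine le_trans ?_ le_self_add
          rw [mul_comm c]; gcongr; exact hs0 p hd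
        · refine le_trans ?_ le_add_self
          simp only
          rw [fV_eq (q := (p.1 0, p.2 0)) h1 h3 (not_le.mp hd)]
          exact hQ p
    · have mV := fV_meas s a1 b1
      have mQ := fQ_meas a0.meas b0.meas
      refine ⟨fun p => fQ φ0 ψ0 (p.1 0, p.2 0) * fV s φ1 ψ1 z1 w1 (p.1 1, p.2 1) *
        fP χ χ (p.1 2, p.2 2), by fun_prop, ?_, fun p h1 h2 h3 h4 => ?_⟩
      · rw [lint6 _ _ _ mQ mV mP2]
        calc _ ≤ (1 + M * 4) * (m * ENNReal.ofReal (4 * √s)) * 1 := by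
              gcongr
              · exact lint_fQ a0 b0
              · exact lint_fV hs a1 b1 hc
          _ = _ := by ring
      · by_cases hd : s ≤ |p.1 1 - p.2 1|
        · refine le_trans ?_ le_self_add
          rw [mul_comm c]; gcongr; exact hs1 p hd
        · refine le_trans ?_ le_add_self
          simp only
          rw [fV_eq (q := (p.1 1, p.2 1)) h2 h4 (not_le.mp hd)]
          exact hQ p
  have mB0 := fB_meas a0 b0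
  have mB1 := fB_meas a1 b1
  have mQ0 := fQ_meas a0.meas b0.meas
  have mQ1 := fQ_meas a1.meas b1.meas
  have mP0 := fP_meas a0.meas b0.meas
  have mP1 := fP_meas a1.meas b1.meas
  have mΦ : Measurable Φ := by rw [hΦ]; fun_prop
  set Y0 : P3 × P3 → ℝ≥0∞ := fun p =>
    fB φ0 ψ0 z0 w0 (p.1 0, p.2 0) * fQ φ1 ψ1 (p.1 1, p.2 1) * fP χ χ (p.1 2, p.2 2) with hY0
  set Y1 : P3 × P3 → ℝ≥0∞ := fun p =>
    fQ φ0 ψ0 (p.1 0, p.2 0) * fB φ1 ψ1 z1 w1 (p.1 1, p.2 1) * fP χ χ (p.1 2, p.2 2) with hY1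
  have mY0 : Measurable Y0 := by rw [hY0]; fun_prop
  have mY1 : Measurable Y1 := by rw [hY1]; fun_prop
  have iΦ : ∫⁻ p, Φ p ≤ 1 := by
    rw [hΦ, lint6 _ _ _ mP0 mP1 mP2]
    exact mul_le_one' (mul_le_one' (lint2_one _ _ a0.meas b0.meas a0.one b0.one)
      (lint2_one _ _ a1.meas b1.meas a1.one b1.one)) hP2
  have iY0 : ∫⁻ p, Y0 p ≤ 2 * ε * (1 + M * 4) ^ 2 := by
    rw [hY0, lint6 _ _ _ mB0 mQ1 mP2]
    calc _ ≤ 2 * ε * (1 + M * 4) * (1 + M * 4) * 1 := by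
          gcongr
          · exact lint_fB a0 b0
          · exact lint_fQ a1 b1
      _ = _ := by ring
  have iY1 : ∫⁻ p, Y1 p ≤ 2 * ε * (1 + M * 4) ^ 2 := by
    rw [hY1, lint6 _ _ _ mQ0 mB1 mP2]
    calc _ ≤ (1 + M * 4) * (2 * ε * (1 + M * 4)) * 1 := by
          gcongr
          · exact lint_fQ a0 b0
          · exact lint_fB a1 b1
      _ = _ := by ring
  calc _ ≤ ∫⁻ p, (c * Φ p + (Y0 p + Y1 p) + X p) := by
        refine lintegral_mono fun p => ?_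
        have e : φ0 (p.1 0) * φ1 (p.1 1) * χ (p.1 2) * (ψ0 (p.2 0) * ψ1 (p.2 1) * χ (p.2 2)) *
            r p = Φ p * r p := by simp only [hΦ, fP]; ring
        rw [e]
        by_cases g0 : p.1 0 ∈ z0 ∧ p.2 0 ∈ w0
        · by_cases g1 : p.1 1 ∈ z1 ∧ p.2 1 ∈ w1
          · refine (hX p g0.1 g1.1 g0.2 g1.2).trans ?_
            gcongr; exact le_self_add
          · refine (hQ p).trans (le_trans ?_ (le_add_self.trans (le_add_self.trans le_self_add)))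
            simp only [hY1]
            gcongr
            exact fQ_le_fB (q := (p.1 1, p.2 1)) g1
        · refine (hQ p).trans (le_trans ?_ (le_self_add.trans (le_add_self.trans le_self_add)))
          simp only [hY0]
          gcongr
          exact fQ_le_fB (q := (p.1 0, p.2 0)) g0
    _ = c * (∫⁻ p, Φ p) + ((∫⁻ p, Y0 p) + ∫⁻ p, Y1 p) + ∫⁻ p, X p := by
        rw [lintegral_add_right _ mX, lintegral_add_left (mΦ.const_mul c),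
          lintegral_add_left mY0, lintegral_const_mul _ mΦ]
    _ ≤ c * 1 + (2 * ε * (1 + M * 4) ^ 2 + 2 * ε * (1 + M * 4) ^ 2) +
        m * ENNReal.ofReal (4 * √s) * (1 + M * 4) := by gcongr
    _ = _ := by ring

end

end Vale.Agent.P370Z.GEO
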