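import Vale.Agent.P370Z.GEO.Pair
import Vale.Agent.P370Z.GEO.Cont

/-!
# P370, block GEO: the remainder of the repulsion between two orbitals
-/

namespace Vale.Agent.P370Z.GEO

open MeasureTheory Finset
open scoped ENNReal

noncomputable section

variable {K : ℕ} {e : ℕ → ℝ → ℝ} {zl zr : ℕ → ℝ} {εz : ℝ}

def sqE (f : ℝ → ℝ) (a : ℝ) : ℝ≥0∞ := ENNReal.ofReal (f a ^ 2)

lemma sqE_meas {f : ℝ → ℝ} (hf : Continuous f) : Measurable (sqE f) := by
  unfold sqE; fun_prop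

lemma lint_sqE {f : ℝ → ℝ} (hf : Integrable fun x => f x * f x) (T : Set ℝ) :
    ∫⁻ a in T, sqE f a = ENNReal.ofReal (∫ a in T, f a ^ 2) := by
  unfold sqE
  rw [ofReal_integral_eq_lintegral_ofReal]
  · simp only [sq]; exact hf.integrableOn
  · exact Filter.Eventually.of_forall fun x => sq_nonneg _

lemma lint_sqE_one {f : ℝ → ℝ} (hf : Integrable fun x => f x * f x) (h1 : ∫ x, f x * f x = 1) :
    ∫⁻ a, sqE f a ≤ 1 := by
  have := lint_sqE hf Set.univ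
  simp only [Measure.restrict_univ, sq, h1, ENNReal.ofReal_one] at this
  exact this.le

lemma Orb.dn (h : Orb K e zl zr εz) {Cc : ℝ} (hC : ∀ k < K, ∀ x, |e k x| ≤ Cc) {k : ℕ}
    (hk : k < K) : Dn (ENNReal.ofReal (Cc ^ 2)) (ENNReal.ofReal εz) (sqE (e k))
      (Set.Icc (zl k) (zr k)) where
  meas := sqE_meas (h.cont k hk)
  mz := measurableSet_Icc
  le a := ENNReal.ofReal_le_ofReal 
    (sq_le_sq' (_root_.abs_le.mp (hC k hk a)).1 (_root_.abs_le.mp (hC k hk a)).2)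
  one := lint_sqE_one (h.int k hk k hk) (by rw [h.on k hk k hk]; simp [idm])
  out := by rw [lint_sqE (h.int k hk k hk)]; exact ENNReal.ofReal_le_ofReal (h.zone k hk)

lemma comb_sq_le {R : Type} [Fintype R] (O : R → ℝ) (hO : ∑ κ, O κ ^ 2 = 1) (f : R → P3 → ℝ)
    (x : P3) : comb O f x ^ 2 ≤ ∑ κ ∈ univ.filter fun κ => O κ ≠ 0, f κ x ^ 2 := by
  have e1 : comb O f x = ∑ κ ∈ univ.filter fun κ => O κ ≠ 0, O κ * f κ x := by
    unfold comb
    rw [sum_filter_of_ne fun κ _ hκ => left_ne_zero_of_mul hκ]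
  have e2 : ∑ κ ∈ univ.filter fun κ => O κ ≠ 0, O κ ^ 2 ≤ 1 :=
    hO ▸ sum_le_sum_of_subset_of_nonneg (filter_subset _ _) fun _ _ _ => sq_nonneg _
  rw [e1]
  refine (sum_mul_sq_le_sq_mul_sq _ _ _).trans ?_
  exact mul_le_of_le_one_left (sum_nonneg fun _ _ => sq_nonneg _) e2

theorem rem_gen (h : Orb K e zl zr εz) (hε : 0 ≤ εz) {Cc : ℝ} (hC : ∀ k < K, ∀ x, |e k x| ≤ Cc)
    {e3 : ℝ → ℝ} (h3 : Continuous e3) (h3i : Integrable fun t => e3 t * e3 t)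
    (h3o : ∫ t, e3 t * e3 t = 1) (O O' : Fin K × Fin K → ℝ) (hO : ∑ κ, O κ ^ 2 = 1)
    (hO' : ∑ κ, O' κ ^ 2 = 1) (ϱ : P3 → P3 → ℝ) (mϱ : Measurable fun p : P3 × P3 => ϱ p.1 p.2)
    (h0 : ∀ x y, 0 ≤ ϱ x y) (hle : ∀ x y, ϱ x y ≤ 1 / nrm (x - y)) {Rf lw : ℝ} (hRf : 0 < Rf)
    (hlw : 0 < lw)
    (hsep : ∀ κ κ' : Fin K × Fin K, O κ ≠ 0 → O' κ' ≠ 0 →
      (∀ x y : P3, x 0 ∈ Set.Icc (zl κ.1) (zr κ.1) → x 1 ∈ Set.Icc (zl κ.2) (zr κ.2) →
        y 0 ∈ Set.Icc (zl κ'.1) (zr κ'.1) → y 1 ∈ Set.Icc (zl κ'.2) (zr κ'.2) → e3 (x 2) ≠ 0 →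
        e3 (y 2) ≠ 0 → ϱ x y ≤ 1 / Rf) ∨
      ((∀ a ∈ Set.Icc (zl κ.1) (zr κ.1), e κ.1 a ^ 2 ≤ 1 / lw) ∨
        ∀ a ∈ Set.Icc (zl κ'.1) (zr κ'.1), e κ'.1 a ^ 2 ≤ 1 / lw) ∨
      ((∀ a ∈ Set.Icc (zl κ.2) (zr κ.2), e κ.2 a ^ 2 ≤ 1 / lw) ∨
        ∀ a ∈ Set.Icc (zl κ'.2) (zr κ'.2), e κ'.2 a ^ 2 ≤ 1 / lw)) :
    ∫ p : P3 × P3, comb O (prodOrb e e3) p.1 ^ 2 * comb O' (prodOrb e e3) p.2 ^ 2 * ϱ p.1 p.2 ≤
      (K : ℝ) ^ 4 * (1 / Rf + 1 / lw + 4 * εz * (1 + Cc ^ 2 * 4) ^ 2 +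
        1 / lw * (4 * √lw) * (1 + Cc ^ 2 * 4)) := by
  set η : ℝ := 1 / Rf + 1 / lw + 4 * εz * (1 + Cc ^ 2 * 4) ^ 2 +
    1 / lw * (4 * √lw) * (1 + Cc ^ 2 * 4) with hη
  have hη0 : 0 ≤ η := by positivity
  have cO : ∀ O : Fin K × Fin K → ℝ, Continuous (comb O (prodOrb e e3)) := by
    intro O
    unfold comb prodOrb
    refine continuous_finsetSum _ fun κ _ => ?_
    have := h.cont _ κ.1.2
    have := h.cont _ κ.2.2
    fun_prop
  set T : (Fin K × Fin K) → (Fin K × Fin K) → P3 × P3 → ℝ≥0∞ := fun κ κ' p =>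
    sqE (e κ.1) (p.1 0) * sqE (e κ.2) (p.1 1) * sqE e3 (p.1 2) *
      (sqE (e κ'.1) (p.2 0) * sqE (e κ'.2) (p.2 1) * sqE e3 (p.2 2)) *
      ENNReal.ofReal (ϱ p.1 p.2) with hT
  have mT : ∀ κ κ', Measurable (T κ κ') := by
    intro κ κ'
    have := sqE_meas (h.cont _ κ.1.2)
    have := sqE_meas (h.cont _ κ.2.2)
    have := sqE_meas (h.cont _ κ'.1.2)
    have := sqE_meas (h.cont _ κ'.2.2)
    have := sqE_meas h3
    have := mϱ.ennreal_ofReal
    rw [hT]; fun_prop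
  have iT : ∀ κ κ', O κ ≠ 0 → O' κ' ≠ 0 → ∫⁻ p, T κ κ' p ≤ ENNReal.ofReal η := by
    intro κ κ' hκ hκ'
    have hc1 : ∀ {t : ℝ}, t ≤ 1 / lw → ENNReal.ofReal t ≤ ENNReal.ofReal (1 / Rf + 1 / lw) :=
      fun ht => ENNReal.ofReal_le_ofReal (ht.trans (le_add_of_nonneg_left (by positivity)))
    refine (pair_bound (h.dn hC κ.1.2) (h.dn hC κ.2.2) (h.dn hC κ'.1.2) (h.dn hC κ'.2.2)
      (sqE_meas h3) (lint_sqE_one h3i h3o) (fun p => ENNReal.ofReal (ϱ p.1 p.2))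
      (ENNReal.ofReal (1 / Rf + 1 / lw)) (ENNReal.ofReal (1 / lw)) hlw (fun p => ?_)
      (fun p hp => hc1 ?_) (fun p hp => hc1 ?_) ?_).trans (le_of_eq ?_)
    · exact (ENNReal.ofReal_le_ofReal (hle _ _)).trans (inv_nrm_le (p.1 - p.2))
    · exact (hle _ _).trans (inv_nrm_le_of (k := 0) hlw hp)
    · exact (hle _ _).trans (inv_nrm_le_of (k := 1) hlw hp)
    · rcases hsep κ κ' hκ hκ' with hs | hs | hs
      · refine Or.inl fun p a1 a2 a3 a4 a5 a6 => ENNReal.ofReal_le_ofReal ?_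
        refine (hs p.1 p.2 a1 a2 a3 a4 (fun h => a5 ?_) (fun h => a6 ?_)).trans
          (le_add_of_nonneg_right (by positivity))
        · simp [sqE, h]
        · simp [sqE, h]
      · exact Or.inr (Or.inl (hs.imp (fun hs a ha => ENNReal.ofReal_le_ofReal (hs a ha))
          fun hs a ha => ENNReal.ofReal_le_ofReal (hs a ha)))
      · exact Or.inr (Or.inr (hs.imp (fun hs a ha => ENNReal.ofReal_le_ofReal (hs a ha))
          fun hs a ha => ENNReal.ofReal_le_ofReal (hs a ha)))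
    · have e1 : (1 : ℝ≥0∞) + ENNReal.ofReal (Cc ^ 2) * 4 = ENNReal.ofReal (1 + Cc ^ 2 * 4) := by
        rw [ENNReal.ofReal_add zero_le_one (by positivity), ENNReal.ofReal_mul (by positivity)]
        simp
      have e2 : (4 : ℝ≥0∞) = ENNReal.ofReal 4 := by simp
      rw [e1, e2, ← ENNReal.ofReal_pow (by positivity), ← ENNReal.ofReal_mul (by positivity),
        ← ENNReal.ofReal_mul (by positivity), ← ENNReal.ofReal_mul (by positivity),
        ← ENNReal.ofReal_mul (by positivity), ← ENNReal.ofReal_add (by positivity) (by positivity),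
        ← ENNReal.ofReal_add (by positivity) (by positivity)]
  have c1 := cO O
  have c2 := cO O'
  rw [integral_eq_lintegral_of_nonneg_ae (Filter.Eventually.of_forall fun p => mul_nonneg
    (mul_nonneg (sq_nonneg _) (sq_nonneg _)) (h0 _ _))
    (Measurable.aestronglyMeasurable (Measurable.mul (by fun_prop) mϱ))]
  refine ENNReal.toReal_le_of_le_ofReal (by positivity) ?_
  calc _ ≤ ∫⁻ p, ∑ κ ∈ univ.filter fun κ => O κ ≠ 0, ∑ κ' ∈ univ.filter fun κ => O' κ ≠ 0,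
        T κ κ' p := by
        refine lintegral_mono fun p => ?_
        have e1 : ∀ κ κ', T κ κ' p = ENNReal.ofReal
            (prodOrb e e3 κ p.1 ^ 2 * prodOrb e e3 κ' p.2 ^ 2 * ϱ p.1 p.2) := by
          intro κ κ'
          simp only [hT, sqE, prodOrb, mul_pow]
          repeat rw [ENNReal.ofReal_mul (by positivity)]
        simp only [e1]
        have hp := h0 p.1 p.2
        rw [sum_congr rfl fun κ _ => (ENNReal.ofReal_sum_of_nonneg fun κ' _ => by positivity).symm,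
          ← ENNReal.ofReal_sum_of_nonneg fun κ _ => sum_nonneg fun κ' _ => by positivity]
        refine ENNReal.ofReal_le_ofReal ?_
        simp only [← sum_mul]
        rw [← sum_mul_sum]
        gcongr
        · exact comb_sq_le O hO _ _
        · exact comb_sq_le O' hO' _ _
    _ = ∑ κ ∈ univ.filter fun κ => O κ ≠ 0, ∑ κ' ∈ univ.filter fun κ => O' κ ≠ 0,
        ∫⁻ p, T κ κ' p := by
        rw [lintegral_finsetSum _ fun κ _ => Finset.measurable_sum _ fun κ' _ => mT κ κ']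
        exact sum_congr rfl fun κ _ => lintegral_finsetSum _ fun κ' _ => mT κ κ'
    _ ≤ ∑ κ ∈ univ.filter fun κ => O κ ≠ 0, ∑ κ' ∈ univ.filter fun κ => O' κ ≠ 0,
        ENNReal.ofReal η :=
        sum_le_sum fun κ hκ => sum_le_sum fun κ' hκ' =>
          iT κ κ' (mem_filter.mp hκ).2 (mem_filter.mp hκ').2
    _ ≤ ∑ _κ : Fin K × Fin K, ∑ _κ' : Fin K × Fin K, ENNReal.ofReal η := by
        refine (sum_le_sum fun κ _ => sum_le_sum_of_subset (filter_subset _ _)).trans ?_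
        exact sum_le_sum_of_subset (filter_subset _ _)
    _ = _ := by
        rw [ENNReal.ofReal_mul (by positivity), ENNReal.ofReal_pow (by positivity)]
        simp only [sum_const, card_univ, Fintype.card_prod, Fintype.card_fin, nsmul_eq_mul,
          ENNReal.ofReal_natCast]
        push_cast; ring

end

end Vale.Agent.P370Z.GEO
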